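import Vale.Agent.P287D.Api.Fld
import Vale.Agent.P283M.Qv

/-!
# P283M: positivity over the base, basic facts
-/

open Set

noncomputable section

namespace Vale.Agent.P283M.Kl

open Vale.Agent.P287D

variable {n : ℕ} {K : Type} [Field K] [Algebra ℂ K] {u : Finset K} {Λ β γ : BD K} {P : Pl K}

theorem inf_smp (u : Finset K) : Smp (inf u) := smp_mx _

theorem inf_nn (u : Finset K) : 0 ≤ inf u := by
  classical
  exact mx_nonneg (by simp)

open Classical in
theorem mz_ov (h : Ov u P) : P.mz (insert 1 u) = 0 := by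
  rw [P.mz_eq (f := 1) (Finset.mem_insert_self _ _) one_ne_zero fun f hf _ => by
    rcases Finset.mem_insert.1 hf with rfl | hf
    · exact le_rfl
    · simpa using P297Z.Pl.ord_nonneg_of_mem _ (h f hf)]
  simp

theorem inf_zero : inf u P = 0 ↔ Ov u P := by
  classical
  refine ⟨fun h a ha => ?_, fun h => by simp only [inf, mx, mz_ov h, Int.cast_zero]⟩
  rcases eq_or_ne a 0 with rfl | a0
  · exact zero_mem _
  have k := P.le_mz (s := insert 1 u) (Finset.mem_insert_of_mem ha) a0
  have e : P.mz (insert 1 u) = 0 := by simpa only [inf, mx, Int.cast_eq_zero] using h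
  exact (P297Z.Pl.ord_nonneg_iff P.toPlace a0).1 (by omega)

theorem inf_pos (h : ¬ Ov u P) : 0 < inf u P := (inf_nn u P).lt_of_ne' (mt inf_zero.1 h)

open Classical in
theorem res_inf (hK : FF K (n + 1)) (h : Ov u P) : res P (inf u) = inf (u.image P.rd) := by
  rw [inf, res_mx hK, Pl.rs, mz_ov h, inf, Finset.image_insert]
  simp [Bm.rd_one]

/-- **HARTO**: effective over the base -/
theorem harto (hK : FF K (n + 1)) (bΛ : Big Λ) (h : Dsc Λ β) (d : Dsc Λ (inf u))
    (h0 : ∀ P, Ov u P → On n Λ P → 0 ≤ β P) :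
    ∃ c₀ : ℝ, 0 ≤ c₀ ∧ ∀ c, c₀ ≤ c → 0 ≤ β + c • inf u := by
  classical
  have fin := Pr.fin_on res' hK h.smp bΛ ((Api.mod.isb n K hK).1 β h.car)
  obtain ⟨C, hC⟩ := (fin.toFinset.image fun P => -β P / inf u P).exists_le
  refine ⟨max C 0, le_max_right _ _, fun c hc => Pr.hart res' hK h.smp bΛ (h.add (d.smul c))
    fun P hP => ?_⟩
  have c0 := (le_max_right _ _).trans hc
  simp only [Pi.add_apply, Pi.smul_apply, smul_eq_mul]
  by_cases o : Ov u P
  · exact add_nonneg (h0 P o hP) (mul_nonneg c0 (inf_nn u P))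
  by_cases b : β P = 0
  · rw [b, zero_add]
    exact mul_nonneg c0 (inf_nn u P)
  have k := (div_le_iff₀ (inf_pos o)).1 ((hC _ (Finset.mem_image_of_mem _
    (fin.mem_toFinset.2 ⟨hP, b⟩))).trans ((le_max_left _ _).trans hc))
  linarith

theorem harto' (hK : FF K (n + 1)) (bΛ : Big Λ) (h : Dsc Λ β) (d : Dsc Λ (inf u))
    (h0 : ∀ P, Ov u P → On n Λ P → 0 ≤ β P) (o : Ov u P) : 0 ≤ β P := by
  obtain ⟨c, -, k⟩ := harto hK bΛ h d h0
  simpa [inf_zero.2 o] using k c le_rfl P

theorem nefO_nef : ∀ (n : ℕ) (K : Type) [Field K] [Algebra ℂ K] (u : Finset K) (β : BD K),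
    FF K (n + 1) → Nef β → NefO n K u β
  | 0, K, _, _, _, β, hK, h => fun _ =>
    (Api.int.nef1 K hK β ((Api.mod.isb 0 K hK).1 β h.car)).2.1.1 h
  | n + 1, K, _, _, _, _, hK, h => fun P _ =>
    nefO_nef n _ _ _ (Api.ffs.rsd _ K hK P) (res_nef hK P h)

theorem nefO_add : ∀ (n : ℕ) (K : Type) [Field K] [Algebra ℂ K] (u : Finset K) (β γ : BD K),
    FF K (n + 1) → β ∈ Car K → γ ∈ Car K → NefO n K u β → NefO n K u γ → NefO n K u (β + γ)
  | 0, K, _, _, _, β, γ, hK, a, b, h, h' => fun k =>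
    (add_nonneg (h k) (h' k)).trans_eq (In.hy.cons_add hK (In.hy.isb 0 K hK β a)
      (In.hy.isb 0 K hK γ b) (b := ![]) (fun i => i.elim0)).symm
  | n + 1, K, _, _, _, _, _, hK, a, b, h, h' => fun P o => by
    rw [res_add hK P a b]
    exact nefO_add n _ _ _ _ (Api.ffs.rsd _ K hK P) (In.res_car _ _) (In.res_car _ _) (h P o)
      (h' P o)

theorem nefO_smul {c : ℝ} (hc : 0 ≤ c) : ∀ (n : ℕ) (K : Type) [Field K] [Algebra ℂ K]
    (u : Finset K) (β : BD K), FF K (n + 1) → β ∈ Car K → NefO n K u β → NefO n K u (c • β)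
  | 0, _, _, _, _, β, _, _, h => fun k =>
    (mul_nonneg hc (h k)).trans_eq (In.cons_smul c β ![]).symm
  | n + 1, K, _, _, _, _, hK, a, h => fun P o => by
    rw [res_smul hK P c a]
    exact nefO_smul hc n _ _ _ (Api.ffs.rsd _ K hK P) (In.res_car _ _) (h P o)

/-- **CUT**: the degree on a general fibre of dimension one -/
theorem cut : ∀ (r : ℕ) (K : Type) [Field K] [Algebra ℂ K] (u : Finset K) (β : BD K),
    FF K (r + 1) → β ∈ Car K → NefO r K u β → vol (r + 1) (inf u) = 0 →
    0 ≤ I (r + 1) K (Fin.cons β fun _ => inf u)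
  | 0, K, _, _, u, β, hK, _, h, v => by
    have f := In.hy.fin hK (In.hy.isb 0 K hK _ (inf_smp u).car) (b := fun _ => inf u)
      fun i => i.elim0
    have z : ∀ P, Ov u P := fun P => by_contra fun o => by
      have k := finsum_pos (f := fun P => inf u P * In.cf P fun _ : Fin 0 => inf u)
        (fun P => mul_nonneg (inf_nn u P) zero_le_one) ⟨P, mul_pos (inf_pos o) one_pos⟩ f
      exact k.ne' v
    exact h fun a ha => const_of_ring hK fun P => z P a ha
  | r + 1, K, _, _, u, β, hK, c, h, v => by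
    have s := inf_smp u
    obtain ⟨t, κ, T, g, l, -, -, d⟩ := exists_ls hK finite_empty (toFinite {β, inf u})
      (forall_mem_insert.2 ⟨c, forall_eq.2 s.car⟩)
    obtain ⟨G, hG, k⟩ := s.exists_rep T.finite_toSet
    have i := In.hy.isb _ K hK _ s.car
    have cc := In.cons_mem (p := (· ∈ Car K)) c fun _ : Fin r => s.car
    have nn := fun P => mul_nonneg (hG.1 P) (In.hy.cf_nef hK P fun _ : Fin (r + 1) => s.nef)
    have v' : ∑ᶠ P, G P * In.cf P (fun _ : Fin (r + 1) => inf u) = 0 :=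
      (In.hy.cons_congr hK i hG.2 fun _ => s.car).trans v
    have e : I (r + 2) K (Fin.cons β fun _ => inf u) =
        I (r + 2) K (Fin.cons β (Fin.cons (inf u) fun _ => inf u)) := by
      congr 2
      exact funext (Fin.cases rfl fun _ => rfl)
    rw [e, In.hy.swap hK c s.car fun _ => s.car, ← In.hy.cons_congr hK i hG.2 cc, In.I_cons]
    refine finsum_nonneg fun P => ?_
    rcases (hG.1 P).eq_or_lt with z | z
    · simp [← show 0 = G P from z]
    refine mul_nonneg z.le ?_
    by_cases o : Ov u P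
    · have w : In.cf P (Fin.cons β fun _ : Fin r => inf u) =
          I (r + 1) P.κ (Fin.cons (res P β) fun _ => inf _) :=
        congrArg (I (r + 1) P.κ) (funext (Fin.cases rfl fun _ => res_inf hK o))
      rw [w]
      refine cut r _ _ _ (Api.ffs.rsd _ K hK P) (In.res_car _ _) (h P o) ?_
      rw [← res_inf hK o]
      by_contra x
      have x' : 0 < In.cf P fun _ : Fin (r + 1) => inf u :=
        (In.hy.cf_nef hK P fun _ => s.nef).lt_of_ne' x
      exact (finsum_pos nn ⟨P, mul_pos z x'⟩ (In.hy.fin hK (In.hy.isb _ K hK _ (hG.car s.car))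
        fun _ => s.car)).ne' v'
    · refine (In.hy.exc hK (fun y => ?_) l.smp (In.cons_mem (p := Dsc (mx t))
        (d β (.inl rfl)).1 fun _ => (d _ (.inr rfl)).1)).ge
      exact (inf_pos o).ne' ((d _ (.inr rfl)).2 P y fun m => z.ne' (k P m))

end Vale.Agent.P283M.Kl
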