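import Vale.Agent.P283M.Kl.Bas

/-!
# P283M: nef over the base is nef on the generic fibre; the negativity lemma over the base
-/

open Set

noncomputable section

namespace Vale.Agent.P283M.Kl

open Vale.Agent.P287D

/-- **NG**: nef over the base implies nef on the generic fibre -/
theorem ng (r : ℕ) : ∀ (m : ℕ) (K K' : Type) [Field K] [Algebra ℂ K] [Field K'] [Algebra ℂ K']
    (L : IntermediateField ℂ K) (φ : K →+* K') (u : Finset K) (H : BD L) (β : BD K),
    GFd r (m + 1) L φ → (∀ a ∈ u, a ∈ L) → Smp H → Big H → inf u - pb (inc L) H ∈ Prn K →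
    β ∈ Car K → NefO (r + m) K u β → Nef (pb φ β)
  | 0, K, K', _, _, _, _, L, φ, u, H, β, h, _, sH, bH, e, c, k => by
    have hK : FF K (r + 1) := h.fk
    have cH := (hK.ok_sub L).car sH.car
    have v : vol (r + 1) (inf u) = 0 :=
      (Pb.I_congr In.hy hK (fun _ => cH) fun _ => e).trans (Api.pb.low r (r + 1) _ _ (inc L) h.fl hK
        (fun _ => rfl) _ Finset.univ (by simp) (fun _ _ => cH) fun _ _ => ⟨H, sH.car, rfl⟩)
    have a := cut r K u β hK c k v
    rw [Pb.I_congr In.hy hK (β := Fin.cons β fun _ => pb (inc L) H) (In.cons_mem c fun _ => cH)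
      (Fin.cases (by simp) fun _ => e)] at a
    have b := a.trans_eq (Api.g5 r 1 K K' L φ h (fun _ => β) (fun _ => H) (fun _ _ => c)
      fun _ => sH.car)
    have p := (h.toExt.ok h.ff).car c
    exact (Api.int.nef1 K' h.ff _ (In.hy.isb 0 K' h.ff _ p)).2.1.2
      (nonneg_of_mul_nonneg_right b ((big_iff_vol h.fl sH.nef).1 bH))
  | m + 1, K, K', _, _, _, _, L, φ, u, H, β, h, hu, sH, bH, e, c, k => by
    classical
    refine Api.int.nef m K' h.ff _ ((h.toExt.ok h.ff).car c) fun P => ?_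
    obtain ⟨Q, hQ⟩ := (g2 _ _ _ _ L φ h).1 P
    have o : Ov u Q := fun a ha => ((g2 _ _ _ _ L φ h).2.1 P Q hQ).1 a (hu a ha)
    obtain ⟨ψ, H', g, b', s', e', t⟩ :=
      Gx.step Api.mod res' Api.vol Api.pb g2 g2b h bH sH hQ
    have hK : FF K (r + m + 1 + 1) := h.fk
    refine (ng r m _ _ _ ψ (u.image Q.rd) H' _ g (fun a ha => ?_) s' b' ?_ (In.res_car _ _)
      (k Q o)).congr (t β c)
    · obtain ⟨x, hx, rfl⟩ := Finset.mem_image.1 ha
      exact Gx.im_le L Q (Gx.mem_im ⟨x, hu x hx⟩)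
    · rw [← e', ← res_inf hK o, ← res_sub hK Q (inf_smp u).car ((hK.ok_sub L).car sH.car)]
      exact res_prn hK Q e

variable {n : ℕ} {K : Type} [Field K] [Algebra ℂ K] {u : Finset K} {Λ β γ A : BD K} {P : Pl K}

theorem mem_fld {a : K} (ha : a ∈ u) : a ∈ fld (inf u) := by
  classical
  refine IntermediateField.subset_adjoin _ _ ⟨1, one_pos, .of_nonneg ?_⟩
  rw [one_smul, sub_nonneg]
  refine mx_mono ⟨1, by simp, one_ne_zero⟩ fun f hf => ?_
  simp only [Finset.mem_insert, Finset.mem_singleton] at hf ⊢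
  rcases hf with rfl | rfl
  exacts [.inl rfl, .inr ha]

/-- **BIGO**: nef over the base plus big is big over the base -/
theorem bigO (hK : FF K (n + 1)) (c : β ∈ Car K) (h : NefO n K u β) (bA : Big A) (cA : A ∈ Car K) :
    ∃ c₀ : ℝ, ∀ d, c₀ ≤ d → Big (β + A + d • inf u) := by
  have s := inf_smp u
  obtain ⟨H, sH, bH, e⟩ := Api.fld.down _ K hK _ s
  obtain ⟨K', _, _, φ, g⟩ := g1 K _ (Api.fld.cld _ K hK _ s) ⟨_, Api.fld.ff _ K hK _⟩
  obtain ⟨r, m, q, g⟩ := g.gfd hK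
  have p : Psef (pb φ β) := by
    obtain _ | m := m
    · rw [show pb φ β = 0 from funext fun P => by simpa using Gx.pos_of_pl g.ff P]
      exact .zero
    · obtain rfl : n = r + m := by omega
      exact (ng r m K K' _ φ u H β g (fun _ => mem_fld) sH bH e c h).psef
  obtain ⟨d, k⟩ := ((Api.g6 r m K K' _ φ g H sH bH).2.2.1 β c).1 p A bA cA
  refine ⟨d, fun d' hd => ((k.add_prn ((Prn K).smul_mem d e)).add_smp
    (s.smul (sub_nonneg.2 hd))).mono (le_of_eq (by module))⟩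

/-- **NEGO**: the negativity lemma over the base -/
theorem nego (hK : FF K (n + 1)) (bΛ : Big Λ) (d : Dsc Λ (inf u)) (c : β ∈ Car K) {a : ℝ}
    (h : NefO n K u (β + a • Λ)) (h0 : ∀ P, Ov u P → On n Λ P → β P ≤ 0) (o : Ov u P) :
    β P ≤ 0 := by
  classical
  have hΛ := d.smp
  have s := inf_smp u
  obtain ⟨t, κ, T, g, l, -, -, w⟩ := exists_ls hK finite_empty (toFinite {β, Λ})
    (forall_mem_insert.2 ⟨c, forall_eq.2 hΛ.car⟩)
  have dβ := w β (.inl rfl)
  have dΛ := (w Λ (.inr rfl)).1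
  obtain ⟨ε, e, G, hG⟩ := bΛ t
  have dG : Dsc (mx t) G := (dΛ.sub ((Dsc.refl l.smp).smul ε)).congr hG.2
  have bt := fun Q (q : On n (mx t) Q) => (res'.on n K hK _ Q l.smp).1 q
  have pG : ∀ Q, Ov u Q → On n (mx t) Q → 0 < β Q → 0 < G Q := fun Q x y b =>
    (hG.1 Q).lt_of_ne fun k => (h0 Q x (Pr.on_of res' hK hΛ l.smp.car (bt Q y) dG.car hG.1
      k.symm e (m := 1) (.of_prn (by simpa using neg_mem hG.2)))).not_gt b
  have fin : {Q | Ov u Q ∧ On n (mx t) Q ∧ 0 < β Q}.Finite :=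
    T.finite_toSet.subset fun Q q => by_contra fun z => q.2.2.ne' (dβ.2 Q q.2.1 z)
  rcases eq_empty_or_nonempty {Q | Ov u Q ∧ On n (mx t) Q ∧ 0 < β Q} with k | k
  · exact neg_nonneg.1 (harto' hK l.big dβ.1.neg (dΛ.trans d) (fun Q x y => neg_nonneg.2
      (not_lt.1 fun b => eq_empty_iff_forall_notMem.1 k Q ⟨x, y, b⟩)) o)
  obtain ⟨Q, ⟨q0, q1, q2⟩, q3⟩ := exists_max_image _ (fun Q => β Q / G Q) fin k
  have q4 := pG Q q0 q1 q2
  have t0 := div_pos q2 q4
  set τ := β Q / G Q with hτ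
  obtain ⟨b, -, kb⟩ := harto hK l.big ((dG.smul τ).sub dβ.1) (dΛ.trans d) fun R x y => by
    rw [Pi.sub_apply, Pi.smul_apply, smul_eq_mul, sub_nonneg]
    rcases le_or_gt (β R) 0 with z | z
    · exact z.trans (mul_nonneg t0.le (hG.1 R))
    · exact (div_le_iff₀ (pG R x y z)).1 (q3 R ⟨x, y, z⟩)
  refine ((h0 Q q0 ?_).not_gt q2).elim
  obtain _ | n := n
  · exact one_pos
  have cγ := (((dG.smul τ).sub dβ.1).add ((dΛ.trans d).smul b)).car
  have cA := (Car K).smul_mem (τ * ε) l.smp.car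
  have c1 := add_mem c ((Car K).smul_mem a hΛ.car)
  have n1 := res_nonneg hK Q cγ (kb b le_rfl) (by simp [inf_zero.2 q0, hτ, q4.ne'])
  obtain ⟨x, hx⟩ := bigO (Api.ffs.rsd _ K hK Q) (In.res_car _ _) (h Q q0)
    (A := res Q ((τ * ε) • mx t + (τ • G - β + b • inf u))) (by
      rw [res_add hK Q cA cγ, res_smul hK Q _ l.smp.car]
      exact ((bt Q q1).smul (mul_pos t0 e)).add_eff (.of_nonneg n1)) (In.res_car _ _)
  have y := hx x le_rfl
  rw [← res_inf hK q0, ← res_smul hK Q _ s.car, ← res_add hK Q c1 (add_mem cA cγ),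
    ← res_add hK Q (add_mem c1 (add_mem cA cγ)) ((Car K).smul_mem _ s.car)] at y
  refine (res'.on _ K hK _ Q hΛ).2 ((res_dsc hK Q ?_).big y)
  refine (((Dsc.refl hΛ).smul (a + τ)).add (d.smul (b + x))).congr ?_
  rw [show β + a • Λ + ((τ * ε) • mx t + (τ • G - β + b • inf u)) + x • inf u -
    ((a + τ) • Λ + (b + x) • inf u) = τ • (G - (Λ - ε • mx t)) by module]
  exact (Prn K).smul_mem _ hG.2

end Vale.Agent.P283M.Kl
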